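import Vale.Agent.P319.S2.H920.Spec
import Vale.Agent.P319.SC.H773.Main34

/-! P319, exponent `1/2`: the induction. `m ^ 2 ≤ C log n` from the pieces POW, PHASE, BLOCK,
ITER, DEG. -/

namespace Vale.Agent.P319.S2.H272

open Finset Vale.Agent.P319.SC Vale.Agent.P319.SC.H323

set_option linter.all false

theorem ar1 (m : ℕ) (hm : m ≤ 524288) (h8 : 8 ≤ m) : m ^ 2 / 1048576 + 4 ≤ m := by
  have h1 : m ^ 2 / 1048576 * 1048576 ≤ m ^ 2 := Nat.div_mul_le_self _ _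
  have h2 : m ^ 2 ≤ 524288 * m := by
    rw [pow_two]
    exact Nat.mul_le_mul_right _ hm
  generalize m ^ 2 / 1048576 = q at *
  generalize m ^ 2 = s at *
  omega

theorem ar0 (m : ℕ) (h8 : m < 8) : m ^ 2 / 1048576 = 0 := by
  apply Nat.div_eq_of_lt
  have : m ^ 2 ≤ 8 ^ 2 := Nat.pow_le_pow_left h8.le 2
  omega

theorem ar2 (m : ℕ) (hm : 524288 < m) :
    m ^ 2 / 1048576 ≤ (m - 1) ^ 2 / 1048576 + m / 2000 := by
  obtain ⟨n, rfl⟩ : ∃ n, m = n + 1 := ⟨m - 1, by omega⟩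
  rw [Nat.add_sub_cancel]
  have h1 : (n + 1) ^ 2 / 1048576 * 1048576 ≤ (n + 1) ^ 2 := Nat.div_mul_le_self _ _
  have h2 : n ^ 2 < (n ^ 2 / 1048576 + 1) * 1048576 := by omega
  have h3 : (n + 1) ^ 2 = n ^ 2 + 2 * n + 1 := by ring
  generalize (n + 1) ^ 2 / 1048576 = q at *
  generalize n ^ 2 / 1048576 = p at *
  generalize (n + 1) ^ 2 = s at *
  generalize n ^ 2 = t at *
  omega

theorem ar3 (m L : ℕ) (hm : 524288 < m) (hL : 3 * m ≤ 4 * L) :
    m ^ 2 / 1048576 + 1 ≤ 2 * (L ^ 2 / 1048576) := by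
  have h1 : m ^ 2 / 1048576 * 1048576 ≤ m ^ 2 := Nat.div_mul_le_self _ _
  have h1' : m ^ 2 < (m ^ 2 / 1048576 + 1) * 1048576 := by omega
  have h2 : L ^ 2 < (L ^ 2 / 1048576 + 1) * 1048576 := by omega
  have h3 : 9 * m ^ 2 ≤ 16 * L ^ 2 := by
    have := Nat.pow_le_pow_left hL 2
    calc 9 * m ^ 2 = (3 * m) ^ 2 := by ring
      _ ≤ (4 * L) ^ 2 := this
      _ = 16 * L ^ 2 := by ring
  have h4 : 524288 ^ 2 ≤ m ^ 2 := Nat.pow_le_pow_left hm.le 2
  generalize m ^ 2 / 1048576 = q at *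
  generalize L ^ 2 / 1048576 = p at *
  generalize m ^ 2 = s at *
  generalize L ^ 2 = t at *
  omega

theorem ar4 (m : ℕ) (hm : 524288 < m) :
    m ^ 2 / 1048576 ≤ (m / 2000 - 5) * (m / 16) := by
  apply Nat.div_le_of_le_mul
  have h1 : m ≤ 2100 * (m / 2000 - 5) := by omega
  have h2 : m ≤ 17 * (m / 16) := by omega
  calc m ^ 2 = m * m := pow_two m
    _ ≤ (2100 * (m / 2000 - 5)) * (17 * (m / 16)) := Nat.mul_le_mul h1 h2
    _ = 35700 * ((m / 2000 - 5) * (m / 16)) := by ring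
    _ ≤ 1048576 * ((m / 2000 - 5) * (m / 16)) := Nat.mul_le_mul_right _ (by norm_num)

section
variable {V ι : Type} [Fintype V] [DecidableEq V] [DecidableEq ι]

theorem over_lev {X : Finset V} {m : ℕ} {𝒞 : Cfg V ι m} {s l : ℕ} {ℰ : Cfg V ι l}
    (h : H920.Over X 𝒞 s l ℰ) : l + s = m := by
  induction h with
  | refl => rfl
  | fix h hx ih => omega

theorem over_cl {X : Finset V} {m : ℕ} {𝒞 : Cfg V ι m} {s l : ℕ} {ℰ : Cfg V ι l}
    (h : H920.Over X 𝒞 s l ℰ) (hX : H920.Cl X 𝒞) : 1 ≤ l → H920.Cl X ℰ := by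
  induction h with
  | refl => exact fun _ => hX
  | @fix s l ℰ h x hx ih =>
    intro hl a b hab ha
    rw [Cfg.fix_c1 ℰ hl, Cfg.fix_c1 ℰ hl] at hab
    exact ih (by omega) a b (ℰ.c1_of_c2 (by omega) hab).2 ha

/-- the claim by strong induction -/
theorem bd_all (hPow : H920.PowStmt) (hIter : H920.IterStmt) (hBlock : H920.BlockStmt)
    (hPhase : H920.PhaseStmt) (hD : DegStmt) :
    ∀ m : ℕ, H920.Bd V ι m (2 ^ (m ^ 2 / 1048576)) := by
  intro m
  induction m using Nat.strong_induction_on with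
  | _ m ih =>
  intro 𝒞 a h2
  rcases Nat.lt_or_ge m 8 with h8 | h8
  · rw [ar0 m h8, pow_zero]
    omega
  rcases Nat.lt_or_ge 524288 m with hm | hm
  swap
  · have h1 := hPow V ι m 𝒞 a h2
    have h3 : 2 ^ 4 * 2 ^ (m ^ 2 / 1048576) ≤ 2 ^ 4 * (𝒞.cls (𝒞.c1 a)).card := by
      refine le_trans ?_ h1
      rw [← pow_add]
      exact Nat.pow_le_pow_right (by norm_num) (by have := ar1 m hm h8; omega)
    exact Nat.le_of_mul_le_mul_left h3 (by norm_num)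
  -- the parameters
  obtain ⟨G, hG⟩ : ∃ G, G = m / 2000 := ⟨_, rfl⟩
  obtain ⟨T, hT⟩ : ∃ T, T = m / 16 := ⟨_, rfl⟩
  set X := 𝒞.cls (𝒞.c1 a) with hX
  have hCl : H920.Cl X 𝒞 := by
    intro b c hbc hb
    rw [hX, 𝒞.mem_cls] at hb ⊢
    rw [← hbc, hb]
  by_cases hH : H920.Heavy X G 𝒞
  swap
  · -- a light colour at depth zero
    simp only [H920.Heavy, H920.HeavyAt, not_forall, not_lt] at hH
    obtain ⟨y, hy, z, hz, hzy, hle⟩ := hH
    obtain ⟨n, rfl⟩ : ∃ n, m = n + 1 := ⟨m - 1, by omega⟩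
    have h1 := ih n (by omega) (𝒞.fix y) z
    have e1 : (𝒞.fix y).cls ((𝒞.fix y).c1 z) = univ.filter fun w => 𝒞.c2 y w = 𝒞.c2 y z := by
      ext w
      rw [(𝒞.fix y).mem_cls, mem_filter, Cfg.fix_c1 𝒞 (by omega), Cfg.fix_c1 𝒞 (by omega)]
      simp
    have e2 : (univ.filter fun w => 𝒞.c2 y w = 𝒞.c2 y z).card ≠ 1 :=
      Gro.card_ne_one 𝒞 (by omega) (ρ := 𝒞.c1 y) rfl hz (Ne.symm hzy)
    have e3 : 0 < (univ.filter fun w => 𝒞.c2 y w = 𝒞.c2 y z).card := 𝒞.val_pos y z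
    rw [e1] at h1
    have h3 := h1 (by omega)
    have e4 : 𝒞.cls (𝒞.c1 y) = X := by
      rw [hX]
      rw [hX, 𝒞.mem_cls] at hy
      rw [hy]
    rw [e4] at hle
    calc 2 ^ ((n + 1) ^ 2 / 1048576) ≤ 2 ^ (G + n ^ 2 / 1048576) := by
          refine Nat.pow_le_pow_right (by norm_num) ?_
          have := ar2 (n + 1) hm
          rw [Nat.add_sub_cancel] at this
          omega
      _ = 2 ^ G * 2 ^ (n ^ 2 / 1048576) := pow_add _ _ _
      _ ≤ 2 ^ G * 𝒞.val y (𝒞.c2 y z) := Nat.mul_le_mul_left _ h3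
      _ ≤ X.card := hle
  -- the block
  obtain ⟨s, l, ℱ, x, hs, hO, hF, hx, hnF⟩ :=
    hPhase V ι G m 𝒞 (𝒞.c1 a) (by omega) (by omega) h2 hH
  have hlev := over_lev hO
  have hCF : H920.Cl X ℱ := over_cl hO hCl (by omega)
  obtain ⟨u₁, hu₁, u₂, hu₂, u₃, hu₃, y, hy, hb⟩ := hBlock V ι G l X ℱ x (by omega) (by omega)
    (by
      intro x' A k1 k2 k3
      exact le_trans (Nat.pow_le_pow_right (by norm_num) (by omega))
        (bigRank_of hD (show 5 ≤ l by omega) (ℱ.fix x') A k1 k2 k3)) hCF hF hx hnF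
  obtain ⟨L, hL⟩ : ∃ L, L = m - 4 * G - 3 * T - 30 := ⟨_, rfl⟩
  have hbd := ih L (by omega)
  rcases Nat.lt_or_ge (2 * X.card) (2 ^ (L ^ 2 / 1048576) * 2 ^ (L ^ 2 / 1048576)) with hc | hc
  · have h1 := hIter V ι L (2 ^ (L ^ 2 / 1048576)) G T (l + 1) X ℱ u₁ u₂ u₃ y hbd (by omega) hc
      (by omega) hy hu₁ hu₂ hu₃ hCF (hF y hy) hb
    have h3 : (ℱ.cls (ℱ.c1 y)).card ≤ X.card := by
      refine card_le_card fun w hw => ?_
      exact hCF y w ((ℱ.mem_cls _ _).1 hw).symm hy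
    refine le_trans (Nat.pow_le_pow_right (by norm_num) ?_) (h1.trans h3)
    rw [hG, hT]
    exact ar4 m hm
  · rw [← pow_add] at hc
    have h1 := ar3 m L hm (by omega)
    have h3 : 2 * 2 ^ (m ^ 2 / 1048576) ≤ 2 * X.card := by
      refine le_trans ?_ hc
      rw [← pow_succ']
      exact Nat.pow_le_pow_right (by norm_num) (by omega)
    exact Nat.le_of_mul_le_mul_left h3 (by norm_num)

end

/-- **package MAIN12** -/
theorem main12_of (hPow : H920.PowStmt) (hIter : H920.IterStmt) (hBlock : H920.BlockStmt)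
    (hPhase : H920.PhaseStmt) (hD : DegStmt) : Main12Stmt := by
  refine ⟨2097152, ?_⟩
  intro V ι _ _ _ m 𝒞 hn hom
  have hne : 0 < Fintype.card V := by omega
  obtain ⟨a⟩ : Nonempty V := Fintype.card_pos_iff.1 hne
  have hcl : 𝒞.cls (𝒞.c1 a) = univ := by
    ext b
    rw [𝒞.mem_cls]
    simp only [mem_univ, iff_true]
    exact hom b a
  have h1 := bd_all hPow hIter hBlock hPhase hD m 𝒞 a (by rw [hcl, card_univ]; exact hn)
  rw [hcl, card_univ] at h1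
  have h2 : m ^ 2 / 1048576 ≤ Nat.log 2 (Fintype.card V) :=
    Nat.le_log_of_pow_le (by norm_num) h1
  have h3 : 1 ≤ Nat.log 2 (Fintype.card V) := Nat.log_pos (by norm_num) hn
  omega

end Vale.Agent.P319.S2.H272
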